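import Vale.Agent.P134.Main

/-!
P134: one-dimensional symmetry for monotone solutions that are almost periodic in all but three
directions, in every dimension.
-/

noncomputable section

open Topology Filter Laplacian MeasureTheory Module

namespace Vale.Agent.Results.P134.AlmostPeriodic

open Vale.Agent.P134

/-- Periodicity in independent directions gives almost periodicity along their span. -/
lemma ap_of_periods {n m : ℕ} {u : Spc n → ℝ} (v : Fin m → Spc n)
    (hv : ∀ i x, u (x + v i) = u x) : AP (Submodule.span ℝ (Set.range v)) u := by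
  let P : AddSubgroup (Spc n) :=
    { carrier := {τ | ∀ x, u (x + τ) = u x}
      zero_mem' := fun x => by simp
      add_mem' := fun {a b} ha hb x => by rw [← add_assoc, hb, ha]
      neg_mem' := fun {a} ha x => by
        have := ha (x + -a)
        rw [neg_add_cancel_right] at this
        exact this.symm }
  intro ε hε
  refine ⟨∑ i, ‖v i‖, fun p hp => ?_⟩
  obtain ⟨c, rfl⟩ := (Submodule.mem_span_range_iff_exists_fun ℝ).1 hp
  have hmem : (∑ i, ⌊c i⌋ • v i) ∈ P := P.sum_mem fun i _ => P.zsmul_mem (hv i) _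
  refine ⟨∑ i, ⌊c i⌋ • v i, sum_mem fun i _ => zsmul_mem (Submodule.subset_span (Set.mem_range_self i)) _,
    ?_, fun x => by rw [hmem x, sub_self, abs_zero]; exact hε.le⟩
  rw [← Finset.sum_sub_distrib]
  refine (norm_sum_le _ _).trans (Finset.sum_le_sum fun i _ => ?_)
  rw [← Int.cast_smul_eq_zsmul ℝ, ← sub_smul, norm_smul, Real.norm_eq_abs]
  refine mul_le_of_le_one_left (norm_nonneg _) ?_
  rw [abs_le]
  constructor <;> linarith [Int.floor_le (c i), Int.lt_floor_add_one (c i)]

/-- In every dimension, a monotone solution bounded by one which is almost periodic in all but three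
directions, or periodic in all but three independent directions, is one-dimensional. -/
theorem result :
    ∀ (n : ℕ) (u : EuclideanSpace ℝ (Fin (n + 1)) → ℝ), ContDiff ℝ 2 u → (∀ x, |u x| ≤ 1) →
      (∀ x, Δ u x = u x ^ 3 - u x) →
      (∀ x, 0 < fderiv ℝ u x (EuclideanSpace.single (Fin.last n) 1)) →
      ((∃ W : Submodule ℝ (EuclideanSpace ℝ (Fin (n + 1))),
          n + 1 ≤ finrank ℝ W + 3 ∧
            ∀ ε > (0 : ℝ), ∃ L : ℝ, ∀ p ∈ W, ∃ τ ∈ W, ‖τ - p‖ ≤ L ∧
              ∀ x, |u (x + τ) - u x| ≤ ε) ∨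
        (∃ (m : ℕ) (v : Fin m → EuclideanSpace ℝ (Fin (n + 1))),
          n + 1 ≤ m + 3 ∧ LinearIndependent ℝ v ∧ ∀ i x, u (x + v i) = u x)) →
      ∃ e : EuclideanSpace ℝ (Fin (n + 1)), ‖e‖ = 1 ∧ ∃ h : ℝ → ℝ, ∀ x, u x = h (inner ℝ e x) := by
  intro n u h2 hb heq hmono h
  have hu : Sol u := ⟨h2, hb, heq⟩
  rcases h with ⟨W, hW, hap⟩ | ⟨m, v, hm, hli, hv⟩
  · exact one_dim hu hmono hW hap
  · refine one_dim hu hmono ?_ (ap_of_periods v hv)
    rw [finrank_span_eq_card hli, Fintype.card_fin]
    exact hm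

end Vale.Agent.Results.P134.AlmostPeriodic

end
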